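import Vale.Agent.P313.H463.UD.Defs

/-!
Universal derandomization, module C2: right answers pass the check.
-/

namespace Vale.Agent.P313.UD.C2

open Finset

theorem hit_nonneg (cs : ℕ → Bool → ℕ) (u : ℕ) : ∀ t v, 0 ≤ hit cs u t v := by
  intro t
  induction t with
  | zero => intro v; simp only [hit]; split_ifs <;> norm_num
  | succ t ih => intro v; simp only [hit]; linarith [ih (cs v false), ih (cs v true)]

theorem hit_le_one (cs : ℕ → Bool → ℕ) (u : ℕ) : ∀ t v, hit cs u t v ≤ 1 := by
  intro t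
  induction t with
  | zero => intro v; simp only [hit]; split_ifs <;> norm_num
  | succ t ih => intro v; simp only [hit]; linarith [ih (cs v false), ih (cs v true)]

/-- The coefficient of the last step. -/
noncomputable def cf (cs : ℕ → Bool → ℕ) (w u : ℕ) : ℚ :=
  (if cs w false = u then 1 else 0) + (if cs w true = u then 1 else 0)

theorem cf_nonneg (cs : ℕ → Bool → ℕ) (w u : ℕ) : 0 ≤ cf cs w u := by
  unfold cf; split_ifs <;> norm_num

theorem cf_le (cs : ℕ → Bool → ℕ) (w u : ℕ) : cf cs w u ≤ 2 := by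
  unfold cf; split_ifs <;> norm_num

/-- The last step recursion. -/
theorem hit_last {cs : ℕ → Bool → ℕ} {V : ℕ} (hcs : ∀ v < V, ∀ b, cs v b < V) (u : ℕ) :
    ∀ t, ∀ v < V, 2 * hit cs u (t + 1) v = ∑ w ∈ range V, hit cs w t v * cf cs w u := by
  intro t
  induction t with
  | zero =>
    intro v hv
    have h1 : ∀ w ∈ range V, hit cs w 0 v * cf cs w u = if v = w then cf cs w u else 0 := by
      intro w _
      simp only [hit]
      split_ifs <;> simp
    rw [sum_congr rfl h1, sum_ite_eq, if_pos (mem_range.2 hv)]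
    simp only [hit, cf]
    ring
  | succ t ih =>
    intro v hv
    have h1 := ih _ (hcs v hv false)
    have h2 := ih _ (hcs v hv true)
    have h3 : hit cs u (t + 1 + 1) v = (hit cs u (t + 1) (cs v false) +
        hit cs u (t + 1) (cs v true)) / 2 := rfl
    have h4 : ∀ w, hit cs w (t + 1) v = (hit cs w t (cs v false) + hit cs w t (cs v true)) / 2 :=
      fun w => rfl
    have h5 : ∑ w ∈ range V, hit cs w (t + 1) v * cf cs w u =
        (∑ w ∈ range V, hit cs w t (cs v false) * cf cs w u +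
          ∑ w ∈ range V, hit cs w t (cs v true) * cf cs w u) / 2 := by
      rw [← sum_add_distrib, sum_div]
      exact sum_congr rfl fun w _ => by rw [h4]; ring
    rw [h3, h5, ← h1, ← h2]
    ring

/-- Counting thresholds. -/
theorem count_bounds (g : ℕ → Prop) [DecidablePred g] (x : ℚ) (hx0 : 0 ≤ x) :
    ∀ K : ℕ, (∀ k < K, ((k : ℚ) + 1 ≤ x → g k) ∧ (x ≤ k → ¬ g k)) →
      min (K : ℚ) x - 1 ≤ ((∑ k ∈ range K, if g k then 1 else 0 : ℕ) : ℚ) ∧
        ((∑ k ∈ range K, if g k then 1 else 0 : ℕ) : ℚ) ≤ min (K : ℚ) (x + 1) := by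
  intro K hK
  have hpf : ∀ k < K, (g k → (k : ℚ) < x) := by
    intro k hk hg
    by_contra hcon
    exact (hK k hk).2 (not_lt.1 hcon) hg
  have hpn : ∀ k < K, (¬ g k → x < (k : ℚ) + 1) := by
    intro k hk hg
    by_contra hcon
    exact hg ((hK k hk).1 (not_lt.1 hcon))
  have hcard : (∑ k ∈ range K, if g k then 1 else 0 : ℕ) = ((range K).filter g).card := by
    rw [card_filter]
  rw [hcard]
  constructor
  · -- all k < floor x are counted
    have h1 : range (min K ⌊x⌋₊) ⊆ (range K).filter g := by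
      intro k hk
      rw [mem_range, lt_min_iff] at hk
      rw [mem_filter, mem_range]
      refine ⟨hk.1, (hK k hk.1).1 ?_⟩
      have h2 : k + 1 ≤ ⌊x⌋₊ := hk.2
      have h3 : ((⌊x⌋₊ : ℕ) : ℚ) ≤ x := Nat.floor_le hx0
      have h4 : ((k + 1 : ℕ) : ℚ) ≤ ((⌊x⌋₊ : ℕ) : ℚ) := by exact_mod_cast h2
      push_cast at h4
      linarith
    have h2 := card_le_card h1
    rw [card_range] at h2
    have h3 : x < (⌊x⌋₊ : ℚ) + 1 := Nat.lt_floor_add_one x
    have h4 : ((min K ⌊x⌋₊ : ℕ) : ℚ) ≤ (((range K).filter g).card : ℚ) := by exact_mod_cast h2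
    have h5 : min (K : ℚ) x - 1 ≤ ((min K ⌊x⌋₊ : ℕ) : ℚ) := by
      push_cast
      rcases le_total (K : ℚ) (⌊x⌋₊ : ℚ) with h | h
      · rw [min_eq_left h]
        linarith [min_le_left (K : ℚ) x]
      · rw [min_eq_right h]
        linarith [min_le_right (K : ℚ) x]
    linarith
  · have h1 : (range K).filter g ⊆ range (min K ⌈x⌉₊) := by
      intro k hk
      rw [mem_filter, mem_range] at hk
      rw [mem_range, lt_min_iff]
      refine ⟨hk.1, ?_⟩
      have h2 := hpf k hk.1 hk.2
      exact Nat.lt_ceil.2 h2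
    have h2 := card_le_card h1
    rw [card_range] at h2
    have h3 : (⌈x⌉₊ : ℚ) < x + 1 := Nat.ceil_lt_add_one hx0
    have h4 : (((range K).filter g).card : ℚ) ≤ ((min K ⌈x⌉₊ : ℕ) : ℚ) := by exact_mod_cast h2
    push_cast at h4
    refine h4.trans (min_le_min le_rfl h3.le)

theorem est_bounds {q : ℕ → ℕ → ℕ → ℕ} {K t u : ℕ} (hK : 0 < K) {p : ℚ} (hp0 : 0 ≤ p)
    (hp1 : p ≤ 1) (hq : ∀ k < K, (((k : ℚ) + 1) / K ≤ p → q t u k = 2) ∧
      (p ≤ (k : ℚ) / K → q t u k = 1)) :
    (K : ℚ) * p - 1 ≤ (est q K t u : ℚ) ∧ (est q K t u : ℚ) ≤ K * p + 1 := by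
  have hKq : (0 : ℚ) < K := by exact_mod_cast hK
  have h := count_bounds (fun k => q t u k = 2) (K * p) (by positivity) K fun k hk => by
    refine ⟨fun h1 => (hq k hk).1 ?_, fun h1 h2 => ?_⟩
    · rw [div_le_iff₀ hKq]; linarith
    · have h3 := (hq k hk).2 (by rw [le_div_iff₀ hKq]; linarith)
      omega
  have h1 : min (K : ℚ) (K * p) = K * p := min_eq_right (by nlinarith)
  rw [h1] at h
  exact ⟨h.1, h.2.trans (min_le_right _ _)⟩

/-- MODULE C2. -/
theorem chkComplete : ChkComplete := by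
  intro q cs V s0 T K hcs hs0 hK hq
  have hcs' : ∀ v < V, ∀ b, toB cs v b < V := by
    intro v hv b
    refine hcs v hv b.toNat ?_
    cases b <;> simp
  have hE : ∀ t ≤ T, ∀ u < V, (K : ℚ) * hit (toB cs) u t s0 - 1 ≤ (est q K t u : ℚ) ∧
      (est q K t u : ℚ) ≤ K * hit (toB cs) u t s0 + 1 := fun t ht u hu =>
    est_bounds hK (hit_nonneg _ _ _ _) (hit_le_one _ _ _ _) (hq t ht u hu)
  refine ⟨fun u hu => ?_, fun t ht u hu => ?_⟩
  · obtain ⟨h1, h2⟩ := hE 0 (Nat.zero_le _) u hu
    have h3 : hit (toB cs) u 0 s0 = if s0 = u then 1 else 0 := rfl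
    rw [h3] at h1 h2
    by_cases hus : u = s0
    · subst hus
      simp only [if_true, mul_one] at h1 h2 ⊢
      constructor
      · have : (est q K 0 u : ℚ) ≤ ((K + 1 : ℕ) : ℚ) := by push_cast; exact h2
        exact_mod_cast this
      · have : (K : ℚ) ≤ ((est q K 0 u + 1 : ℕ) : ℚ) := by push_cast; linarith
        exact_mod_cast this
    · have hsu : ¬ s0 = u := fun h => hus h.symm
      simp only [hsu, hus, if_false, mul_zero, zero_add] at h1 h2 ⊢
      constructor
      · exact_mod_cast h2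
      · exact Nat.zero_le _
  · obtain ⟨h1, h2⟩ := hE (t + 1) ht u hu
    have hl := hit_last hcs' u t s0 hs0
    -- the inflow as a rational number
    have hI : ((infl q cs V K t u : ℕ) : ℚ) = ∑ w ∈ range V, (est q K t w : ℚ) * cf (toB cs) w u := by
      unfold infl
      rw [Nat.cast_sum]
      refine sum_congr rfl fun w _ => ?_
      have e0 : toB cs w false = cs w 0 := rfl
      have e1 : toB cs w true = cs w 1 := rfl
      unfold cf
      rw [e0, e1]
      push_cast
      split_ifs <;> ring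
    have hup : ∑ w ∈ range V, (est q K t w : ℚ) * cf (toB cs) w u ≤
        ∑ w ∈ range V, (K * (hit (toB cs) w t s0 * cf (toB cs) w u) + 2) := by
      refine sum_le_sum fun w hw => ?_
      have h3 := (hE t (by omega) w (mem_range.1 hw)).2
      have h4 := cf_nonneg (toB cs) w u
      have h5 := cf_le (toB cs) w u
      nlinarith [mul_le_mul_of_nonneg_right h3 h4]
    have hlo : ∑ w ∈ range V, (K * (hit (toB cs) w t s0 * cf (toB cs) w u) - 2) ≤
        ∑ w ∈ range V, (est q K t w : ℚ) * cf (toB cs) w u := by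
      refine sum_le_sum fun w hw => ?_
      have h3 := (hE t (by omega) w (mem_range.1 hw)).1
      have h4 := cf_nonneg (toB cs) w u
      have h5 := cf_le (toB cs) w u
      nlinarith [mul_le_mul_of_nonneg_right h3 h4]
    rw [sum_add_distrib, ← mul_sum, ← hl, sum_const, card_range, nsmul_eq_mul] at hup
    rw [sum_sub_distrib, ← mul_sum, ← hl, sum_const, card_range, nsmul_eq_mul] at hlo
    rw [← hI] at hup hlo
    constructor
    · have : ((2 * est q K (t + 1) u : ℕ) : ℚ) ≤ ((infl q cs V K t u + (2 * V + 2) : ℕ) : ℚ) := by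
        push_cast
        linarith
      exact_mod_cast this
    · have : ((infl q cs V K t u : ℕ) : ℚ) ≤ ((2 * est q K (t + 1) u + (2 * V + 2) : ℕ) : ℚ) := by
        push_cast
        linarith
      exact_mod_cast this

end Vale.Agent.P313.UD.C2
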